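import Vale.Agent.P353.BFSS
import Vale.Agent.P353.BdZ.B17

open MeasureTheory Vale.Agent.P353.BFSS

/-- For every `N` the space of normalizable zero-energy states of the `SU(N)` BFSS matrix model is
finite dimensional, of dimension at most the number `p(N)` of partitions of `N`: there are
`n ≤ p(N)` zero-energy states such that every zero-energy state is almost everywhere a linear
combination of them. -/
theorem Vale.Agent.Results.P353.BoundN.result {N d : ℕ} {F : Type*} [NormedAddCommGroup F]
    [InnerProductSpace ℂ F] (M : Model N d F) :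
    ∃ (n : ℕ) (Φ : Fin n → Conf d → F), n ≤ Fintype.card (Nat.Partition N) ∧
      (∀ i, M.IsZeroEnergyState (Φ i)) ∧ ∀ Ψ, M.IsZeroEnergyState Ψ →
        ∃ c : Fin n → ℂ, ∀ᵐ x ∂leb d, Ψ x = ∑ i, c i • Φ i x :=
  Vale.Agent.P353.Z.U.All.bound_model M
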