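import Vale.Agent.P353.BdA.B47

open MeasureTheory Vale.Agent.P353.BFSS

/-- The `SU(N)` BFSS matrix model has, for every `N ≥ 2`, exactly one normalizable zero-energy
state up to scalars on the whole physical Hilbert space: `dim ker H_N = 1`. -/
theorem Vale.Agent.Results.P353.UniqueN.result {N d : ℕ} {F : Type*} [NormedAddCommGroup F]
    [InnerProductSpace ℂ F] (M : Model N d F) (hN : 2 ≤ N) :
    ∃ Φ : Conf d → F, M.IsZeroEnergyState Φ ∧ ¬ (∀ᵐ x ∂leb d, Φ x = 0) ∧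
      ∀ Ψ, M.IsZeroEnergyState Ψ → ∃ c : ℂ, ∀ᵐ x ∂leb d, Ψ x = c • Φ x :=
  Vale.Agent.P353.Z.AFinal.one M hN
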