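import Vale.Agent.P353.BdA.B47

open Vale.Agent.P353.BFSS

/-- For every `N ≥ 2` the data of the `SU(N)` BFSS matrix model exist, and for all such data the model has exactly one
normalizable zero-energy state up to scalars: `dim ker H_N = 1`. -/
theorem Vale.Agent.Results.P353.UniqueNX.result {N : ℕ} (hN : 2 ≤ N) :
    (∃ (F : Type) (_ : NormedAddCommGroup F) (_ : InnerProductSpace ℂ F), Nonempty (Model N (N ^ 2 - 1) F)) ∧
    ∀ (d : ℕ) (F : Type*) [NormedAddCommGroup F] [InnerProductSpace ℂ F] (M : Model N d F),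
      ∃ Φ : Conf d → F, M.IsZeroEnergyState Φ ∧ ¬ (∀ᵐ x ∂leb d, Φ x = 0) ∧
        ∀ Ψ, M.IsZeroEnergyState Ψ → ∃ c : ℂ, ∀ᵐ x ∂leb d, Ψ x = c • Φ x :=
  Vale.Agent.P353.Z.AFinal.oneX hN
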